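import Vale.Agent.P235.K5.H750.Presc2
import Vale.Agent.P235.K5.H500.Short3
import Vale.Agent.P235.H231.K5.ColPlug

/-!
P235, line K5 (helper750): PRESC without hypotheses.
-/

set_option autoImplicit false

namespace Vale.Agent.P235.K5.H750

open Vale.Agent.P235.K5

/-- every piece of a 3-sum extends every prescribed metric on its root triangle -/
theorem prescStmt : PrescStmt :=
  presc2 Vale.Agent.P235.H231.K5.collarStmt Vale.Agent.P235.K5.H500.short3

end Vale.Agent.P235.K5.H750
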