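import Vale.Agent.P235.K5.Cap

/-!
P235, line K5, [PRESC] (helper750): prescribed metric on the root triple.
-/

set_option autoImplicit false

namespace Vale.Agent.P235.K5.H750

open SimpleGraph Vale.Agent.P235 Vale.Agent.P235.H134 Vale.Agent.P235.H56 Vale.Agent.P235.K5
open Vale.Agent.P235.H341W (capG)

theorem presc (hD : DegStmt) (hT : TriIsoStmt) (hC : CollarStmt) (hS : Short3Stmt) :
    PrescStmt := by
  intro V _ G c hc hc1 hE d hd hG R hR hno ρ hρ hlow hup
  have hinj : Function.Injective R := by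
    intro i j hij
    by_contra hne
    exact (hR i j hne).ne hij
  obtain ⟨d', md, gd, hρ', hle, hcase⟩ := hS V G d hd hG R hR ρ hρ hup
  obtain ⟨F1, l1, e1, low1, up1⟩ := hT V G c hc (hD V G c hc hE) d' md gd R hR hno
  obtain ⟨F2, l2, e2, up2, near2⟩ := hC V d hd R hinj ρ hρ hup
  refine ⟨fun x y => 1 / 8 * F1 x y + 7 / 8 * F2 x y, ?_, ?_, ?_, ?_⟩
  · exact (l1.smul (by norm_num)).add (l2.smul (by norm_num))
  · intro i j
    have h1 := e1 i j
    have h2 := e2 i j
    have h3 := hρ' i j
    show 1 / 8 * F1 (R i) (R j) + 7 / 8 * F2 (R i) (R j) = ρ i j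
    rw [h1, h2, h3]
    ring
  · intro x y
    show c / 12288 * d x y ≤ 1 / 8 * F1 x y + 7 / 8 * F2 x y
    have hd0 := hd.nonneg x y
    have n2 := l2.nonneg x y
    by_cases hfar : 1 / 256 * d x y ≤ d' x y
    · have h1 := low1 x y
      have h2 : c / 6 * (1 / 256 * d x y) ≤ c / 6 * d' x y :=
        mul_le_mul_of_nonneg_left hfar (by positivity)
      linarith
    · have hlt := not_le.1 hfar
      have hex : ∃ i j, d x (R i) + ρ i j + d (R j) y < 1 / 256 * d x y := by
        rcases hcase x y with h | ⟨i, j, h⟩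
        · exfalso
          rw [h] at hlt
          linarith
        · exact ⟨i, j, by rw [← h]; exact hlt⟩
      obtain ⟨i, j, hij⟩ := near2 x y hex
      have t1 : F1 (R i) (R j) ≤ F1 (R i) x + F1 x (R j) := l1.tri _ _ _
      have t2 : F1 x (R j) ≤ F1 x y + F1 y (R j) := l1.tri _ _ _
      have u1 : F1 (R i) x ≤ d (R i) x := (up1 _ _).trans (hle _ _)
      have u2 : F1 y (R j) ≤ d y (R j) := (up1 _ _).trans (hle _ _)
      have s1 := hd.symm (R i) x
      have s2 := hd.symm y (R j)
      have e := e1 i j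
      rw [hρ' i j] at e
      have hl := hlow i j
      have p1 := hd.nonneg x (R i)
      have p2 := hd.nonneg (R j) y
      have tt : d x y ≤ d x (R i) + d (R i) (R j) + d (R j) y :=
        (hd.tri x (R j) y).trans (add_le_add_left (hd.tri x (R i) (R j)) _)
      have hcc : c / 12288 ≤ 3 / 4 := by linarith
      have q1 : c / 12288 * d x (R i) ≤ 3 / 4 * d x (R i) := mul_le_mul_of_nonneg_right hcc p1
      have q2 : c / 12288 * d (R j) y ≤ 3 / 4 * d (R j) y := mul_le_mul_of_nonneg_right hcc p2
      have q3 : c / 12288 * d x y ≤ c / 12288 * (d x (R i) + d (R i) (R j) + d (R j) y) :=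
        mul_le_mul_of_nonneg_left tt (by positivity)
      have q4 : c / 12288 * (d x (R i) + d (R i) (R j) + d (R j) y) =
          c / 12288 * d x (R i) + c / 12288 * d (R i) (R j) + c / 12288 * d (R j) y := by ring
      linarith
  · intro x y
    show 1 / 8 * F1 x y + 7 / 8 * F2 x y ≤ d x y
    have h1 := (up1 x y).trans (hle x y)
    have h2 := up2 x y
    linarith

end Vale.Agent.P235.K5.H750
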