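import Vale.Agent.P235.K5.Cap
import Vale.Agent.P235.K5.H237.TriIso


/-!
P235, line K5, [PRESC] (helper750): prescribed metric on the root triple, from [COLLAR] and
[SHORT3] alone (with TRIISO of helper237 and CENTRE of helper558).
-/

set_option autoImplicit false

namespace Vale.Agent.P235.K5.H750

open SimpleGraph Vale.Agent.P235 Vale.Agent.P235.H134 Vale.Agent.P235.H56 Vale.Agent.P235.K5
open Vale.Agent.P235.H341W (capG)

theorem gp_add {V : Type} {d : V → V → ℝ} (hd : IsMet d) (R : Fin 3 → V) (i j : Fin 3)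
    (hij : i ≠ j) : H237.gp d R i + H237.gp d R j ≤ d (R i) (R j) := by
  have g0 : H237.gp d R 0 = (d (R 0) (R 1) + d (R 0) (R 2) - d (R 1) (R 2)) / 2 := rfl
  have g1 : H237.gp d R 1 = (d (R 1) (R 2) + d (R 1) (R 0) - d (R 2) (R 0)) / 2 := rfl
  have g2 : H237.gp d R 2 = (d (R 2) (R 0) + d (R 2) (R 1) - d (R 0) (R 1)) / 2 := rfl
  have s10 := hd.symm (R 1) (R 0)
  have s20 := hd.symm (R 2) (R 0)
  have s21 := hd.symm (R 2) (R 1)
  have hi : i = 0 ∨ i = 1 ∨ i = 2 := by omega
  have hj : j = 0 ∨ j = 1 ∨ j = 2 := by omega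
  rcases hi with rfl | rfl | rfl <;> rcases hj with rfl | rfl | rfl <;>
    first
      | exact absurd rfl hij
      | (simp only [g0, g1, g2]; linarith)

/-- [TRIISO] with CENTRE, for graphs which stay without `K_{3,3}` minor after coning the triple -/
theorem triIso' {V : Type} [Finite V] (G : SimpleGraph V) (c : ℝ) (hc : 0 < c)
    (hE : EdgeExact G c) (d : V → V → ℝ) (hd : IsMet d) (hG : Gen G d) (R : Fin 3 → V)
    (hR : TriAdj G R) (hno : ¬ IsMinor K33 (capG G (Set.range R))) :
    ∃ F : V → V → ℝ, IsL1 F ∧ (∀ i j, F (R i) (R j) = d (R i) (R j)) ∧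
      (∀ x y, c / 6 * d x y ≤ F x y) ∧ ∀ x y, F x y ≤ d x y :=
  H237.triIso hc hE hd hG hR fun x y t hx hy => by
    have := H558.centre hd hG R hno (H237.gp d R) (gp_add hd R) t t x y hx hy
    linarith

theorem presc2 (hC : CollarStmt) (hS : Short3Stmt) : PrescStmt := by
  intro V _ G c hc hc1 hE d hd hG R hR hno ρ hρ hlow hup
  have hinj : Function.Injective R := by
    intro i j hij
    by_contra hne
    exact (hR i j hne).ne hij
  obtain ⟨d', md, gd, hρ', hle, hcase⟩ := hS V G d hd hG R hR ρ hρ hup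
  obtain ⟨F1, l1, e1, low1, up1⟩ := triIso' G c hc hE d' md gd R hR hno
  obtain ⟨F2, l2, e2, up2, near2⟩ := hC V d hd R hinj ρ hρ hup
  refine ⟨fun x y => 1 / 8 * F1 x y + 7 / 8 * F2 x y, ?_, ?_, ?_, ?_⟩
  · exact (l1.smul (by norm_num)).add (l2.smul (by norm_num))
  · intro i j
    have h1 := e1 i j
    have h2 := e2 i j
    have h3 := hρ' i j
    show 1 / 8 * F1 (R i) (R j) + 7 / 8 * F2 (R i) (R j) = ρ i j
    rw [h1, h2, h3]
    ring
  · intro x y
    show c / 12288 * d x y ≤ 1 / 8 * F1 x y + 7 / 8 * F2 x y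
    have hd0 := hd.nonneg x y
    have n2 := l2.nonneg x y
    by_cases hfar : 1 / 256 * d x y ≤ d' x y
    · have h1 := low1 x y
      have h2 : c / 6 * (1 / 256 * d x y) ≤ c / 6 * d' x y :=
        mul_le_mul_of_nonneg_left hfar (by positivity)
      linarith
    · have hlt := not_le.1 hfar
      have hex : ∃ i j, d x (R i) + ρ i j + d (R j) y < 1 / 256 * d x y := by
        rcases hcase x y with h | ⟨i, j, h⟩
        · exfalso
          rw [h] at hlt
          linarith
        · exact ⟨i, j, by rw [← h]; exact hlt⟩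
      obtain ⟨i, j, hij⟩ := near2 x y hex
      have t1 : F1 (R i) (R j) ≤ F1 (R i) x + F1 x (R j) := l1.tri _ _ _
      have t2 : F1 x (R j) ≤ F1 x y + F1 y (R j) := l1.tri _ _ _
      have u1 : F1 (R i) x ≤ d (R i) x := (up1 _ _).trans (hle _ _)
      have u2 : F1 y (R j) ≤ d y (R j) := (up1 _ _).trans (hle _ _)
      have s1 := hd.symm (R i) x
      have s2 := hd.symm y (R j)
      have e := e1 i j
      rw [hρ' i j] at e
      have hl := hlow i j
      have p1 := hd.nonneg x (R i)
      have p2 := hd.nonneg (R j) y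
      have tt : d x y ≤ d x (R i) + d (R i) (R j) + d (R j) y :=
        (hd.tri x (R j) y).trans (add_le_add_left (hd.tri x (R i) (R j)) _)
      have hcc : c / 12288 ≤ 3 / 4 := by linarith
      have q1 : c / 12288 * d x (R i) ≤ 3 / 4 * d x (R i) := mul_le_mul_of_nonneg_right hcc p1
      have q2 : c / 12288 * d (R j) y ≤ 3 / 4 * d (R j) y := mul_le_mul_of_nonneg_right hcc p2
      have q3 : c / 12288 * d x y ≤ c / 12288 * (d x (R i) + d (R i) (R j) + d (R j) y) :=
        mul_le_mul_of_nonneg_left tt (by positivity)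
      have q4 : c / 12288 * (d x (R i) + d (R i) (R j) + d (R j) y) =
          c / 12288 * d x (R i) + c / 12288 * d (R i) (R j) + c / 12288 * d (R j) y := by ring
      linarith
  · intro x y
    show 1 / 8 * F1 x y + 7 / 8 * F2 x y ≤ d x y
    have h1 := (up1 x y).trans (hle x y)
    have h2 := up2 x y
    linarith

end Vale.Agent.P235.K5.H750
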